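import Vale.Agent.P335.H978.Fin
import Vale.Agent.P335.H414.Sharp

/-!
Written by helper978 (gaps and mixing) and helper414 (sharpness); helpers 410, 571 and 641 proposed
the same theorem.
-/

namespace Vale.Agent.Results.P335.CurveballGap

open Vale.Agent.P335 Vale.Agent.P335.H586 Vale.Agent.P335.H978

open Classical in
/-- The Kannan-Tetali-Vempala conjecture for simple graphs, and the sharp spectral gap and the
mixing time of the Curveball chains on graphs with given degrees and on zero-one matrices with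
given margins. -/
theorem result :
    (∀ n : ℕ, 4 ≤ n →
      (∀ d : Fin n → ℕ, Graphical d →
        IsLeast {t : ℕ | MixedBy d t} (tmix d) ∧ tmix d ≤ n ^ 6 ∧
          ∀ t : ℕ, n ^ 6 ≤ t → MixedBy d t) ∧
      (∀ d : Fin n → ℕ,
        (∀ (l : ℝ) (f : Realization d → ℝ), EigenOf (curveball d) l f → (∃ G H, f G ≠ f H) →
          0 ≤ l ∧ l ≤ 1 - 4 / ((n : ℝ) * (n - 1))) ∧
        (∀ ε : ℝ, 0 < ε → ∀ t : ℕ,
          (n : ℝ) * (n - 1) / 4 * (Real.log (Nat.card (Realization d)) / 2 +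
            Real.log (1 / (2 * ε))) ≤ t → WithinOf (curveball d) ε t) ∧
        (∀ t : ℕ, (n : ℝ) ^ 2 * ((∑ v, (d v : ℝ)) * Real.log n + 2) / 8 ≤ t →
          WithinOf (curveball d) (1 / 4) t) ∧
        ∀ t : ℕ, n ^ 4 ≤ 8 * t → WithinOf (curveball d) (1 / 4) t) ∧
      ∃ d : Fin n → ℕ, Graphical d ∧
        (∀ t : ℕ, WithinOf (curveball d) (1 / 4) t → n * (n - 1) ≤ 8 * t) ∧
        ∃ f : Realization d → ℝ, EigenOf (curveball d) (1 - 4 / ((n : ℝ) * (n - 1))) f ∧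
          ∃ G H, f G ≠ f H) ∧
    (∀ a b : ℕ, 2 ≤ a → 2 ≤ b →
      (∀ (r : Fin a → ℕ) (c : Fin b → ℕ),
        (∀ (l : ℝ) (f : Margins r c → ℝ), EigenOf (bipCurveball r c) l f →
          (∃ M N, f M ≠ f N) → 0 ≤ l ∧ l ≤ 1 - 2 / ((a : ℝ) * (a - 1))) ∧
        (∀ ε : ℝ, 0 < ε → ∀ t : ℕ,
          (a : ℝ) * (a - 1) / 2 * (Real.log (Nat.card (Margins r c)) / 2 +
            Real.log (1 / (2 * ε))) ≤ t → WithinOf (bipCurveball r c) ε t) ∧
        ∀ t : ℕ, a ^ 3 * b ≤ 2 * t → WithinOf (bipCurveball r c) (1 / 4) t) ∧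
      ∃ (r : Fin a → ℕ) (c : Fin b → ℕ),
        (∀ t : ℕ, WithinOf (bipCurveball r c) (1 / 4) t → a * (a - 1) ≤ 4 * t) ∧
        ∃ f : Margins r c → ℝ, EigenOf (bipCurveball r c) (1 - 2 / ((a : ℝ) * (a - 1))) f ∧
          ∃ M N, f M ≠ f N) := by
  refine ⟨fun n hn => ⟨fun d hd => ?_, fun d => ⟨curve_eigen hn d,
    fun ε hε t ht => curve_tv hn d hε t ht, fun t ht => curve_edges hn d t ht,
    fun t ht => curve_poly hn d t ht⟩, ?_⟩, fun a b ha hb => ⟨fun r c =>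
    ⟨bip_curve_eigen ha r c, fun ε hε t ht => bip_curve_tv ha r c hε t ht,
      fun t ht => bip_curve_poly ha (by omega) r c t ht⟩, ?_⟩⟩
  · exact final_of_half (fun _ _ d _ => poincare_half d) n hn d hd
  · refine ⟨d0 n, ⟨G1 hn, G1_deg hn⟩, fun t ht => H414.curveball_lower hn ht, ef hn,
      H414.curveball_eigen hn, R1 hn, R2 hn, ?_⟩
    rw [ef1, ef2]; norm_num
  · refine ⟨m0 a, m0 b, fun t ht => H414.bipCurveball_lower ha hb ht, ef' ha hb,
      H414.bipCurveball_eigen ha hb, M1 ha hb, M2 ha hb, ?_⟩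
    rw [ef'1, ef'2]; norm_num

end Vale.Agent.Results.P335.CurveballGap
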