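import Vale.Agent.P335.H882.Low

namespace Vale.Agent.Results.P335.LowerOrder

open Vale.Agent.P335

/-- The Kannan-Tetali-Vempala conjecture for simple graphs with the polynomial `n ^ 6`, and the
order of the worst mixing time from below: it is at least `C(n,4) * log n / 2`, so that no
polynomial of degree at most `4` bounds the mixing times. -/
theorem result :
    (∀ n : ℕ, 4 ≤ n → ∀ d : Fin n → ℕ, Graphical d →
      IsLeast {t : ℕ | MixedBy d t} (tmix d) ∧ tmix d ≤ n ^ 6 ∧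
        ∀ t : ℕ, n ^ 6 ≤ t → MixedBy d t) ∧
    (∀ n : ℕ, 4 ≤ n → ∃ d : Fin n → ℕ, Graphical d ∧
      (n.choose 4 : ℝ) * Real.log n ≤ 2 * (tmix d : ℝ)) ∧
    ∀ p : Polynomial ℝ,
      (∀ n : ℕ, 4 ≤ n → ∀ d : Fin n → ℕ, Graphical d → (tmix d : ℝ) ≤ p.eval (n : ℝ)) →
        5 ≤ p.natDegree :=
  ⟨final_of_half (fun _ _ d _ => poincare_half d), fun _ hn => H882.lower hn, H882.degree_low⟩

end Vale.Agent.Results.P335.LowerOrder
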