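import Vale.Agent.P335.H498.Poly

/-!
# P335: rapid mixing of the switch chain, and the Mihail-Vazirani conjecture for degree polytopes
-/

namespace Vale.Agent.Results.P335.MihailVazirani

open Vale.Agent.P335 Vale.Agent.P335.H498

/-- (1) The Kannan-Tetali-Vempala conjecture for simple graphs, with the polynomial `n ^ 6`.
(2) For every degree vector `d` the 0/1 polytope spanned by the simple graphs with degrees `d` has
edge expansion at least one and algebraic connectivity at least two.
(3) The same for the polytope of the 0/1 matrices with given row and column sums. -/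
theorem result :
    (∀ n : ℕ, 4 ≤ n → ∀ d : Fin n → ℕ, Graphical d →
      IsLeast {t : ℕ | MixedBy d t} (tmix d) ∧ tmix d ≤ n ^ 6 ∧
        ∀ t : ℕ, n ^ 6 ≤ t → MixedBy d t) ∧
    (∀ (n : ℕ) (d : Fin n → ℕ) (V : Finset (Sym2 (Fin n) → ℝ)),
      (∀ x, x ∈ V ↔ ∃ G : SimpleGraph (Fin n), HasDegrees d G ∧ x = G.edgeSet.indicator 1) →
        ExpandingPolytope V) ∧
    (∀ (a b : ℕ) (r : Fin a → ℕ) (c : Fin b → ℕ) (V : Finset (Fin a × Fin b → ℝ)),
      (∀ x, x ∈ V ↔ (∀ p, x p = 0 ∨ x p = 1) ∧ (∀ i, ∑ j, x (i, j) = r i) ∧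
        ∀ j, ∑ i, x (i, j) = c j) → ExpandingPolytope V) :=
  ⟨final_of_half fun _ _ d _ => poincare_half d, fun _ d V hV => expanding_graphs d V hV,
    fun _ _ r c V hV => expanding_matrices r c V hV⟩

end Vale.Agent.Results.P335.MihailVazirani
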