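import Vale.Agent.P335.H586.Sharp
import Vale.Agent.P335.H586.BipSharp

namespace Vale.Agent.Results.P335.SharpGap

open Vale.Agent.P335 Vale.Agent.P335.H586

/-- The Kannan-Tetali-Vempala conjecture for simple graphs and for bipartite graphs, with the sharp
spectral gap of the switch chains. -/
theorem result :
    (∀ n : ℕ, 4 ≤ n →
      (∀ d : Fin n → ℕ, Graphical d →
        (IsLeast {t : ℕ | MixedBy d t} (tmix d) ∧ tmix d ≤ n ^ 6 ∧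
          ∀ t : ℕ, n ^ 6 ≤ t → MixedBy d t) ∧
        (∀ (l : ℝ) (f : Realization d → ℝ), IsEigen d l f → (∃ G H, f G ≠ f H) →
          0 ≤ l ∧ l ≤ 1 - 1 / (6 * (n.choose 4 : ℝ))) ∧
        (∀ ε : ℝ, 0 < ε → ∀ t : ℕ,
          6 * (n.choose 4 : ℝ) * (Real.log (Nat.card (Realization d)) / 2 +
            Real.log (1 / (2 * ε))) ≤ t → MixedWithin d ε t) ∧
        ∀ t : ℕ, (n : ℝ) ^ 4 * ((∑ v, (d v : ℝ)) * Real.log n + 2) / 8 ≤ t → MixedBy d t) ∧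
      ∃ d : Fin n → ℕ, Graphical d ∧ 3 * n.choose 4 ≤ tmix d ∧
        ∃ f : Realization d → ℝ, IsEigen d (1 - 1 / (6 * (n.choose 4 : ℝ))) f ∧
          ∃ G H, f G ≠ f H) ∧
    (∀ a b : ℕ, 2 ≤ a → 2 ≤ b →
      (∀ (r : Fin a → ℕ) (c : Fin b → ℕ),
        (∀ (l : ℝ) (f : Margins r c → ℝ), IsBipEigen r c l f → (∃ M N, f M ≠ f N) →
          0 ≤ l ∧ l ≤ 1 - 1 / ((a.choose 2 : ℝ) * (b.choose 2 : ℝ))) ∧
        (∀ ε : ℝ, 0 < ε → ∀ t : ℕ,
          (a.choose 2 : ℝ) * (b.choose 2 : ℝ) * (Real.log (Nat.card (Margins r c)) / 2 +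
            Real.log (1 / (2 * ε))) ≤ t → BipMixedWithin r c ε t) ∧
        ∀ t : ℕ, (a * b) ^ 3 ≤ t → BipMixedWithin r c (1 / 4) t) ∧
      ∃ (r : Fin a → ℕ) (c : Fin b → ℕ),
        (∀ t : ℕ, BipMixedWithin r c (1 / 4) t → a.choose 2 * b.choose 2 ≤ 2 * t) ∧
        ∃ f : Margins r c → ℝ, IsBipEigen r c (1 - 1 / ((a.choose 2 : ℝ) * (b.choose 2 : ℝ))) f ∧
          ∃ M N, f M ≠ f N) := by
  refine ⟨fun n hn => ⟨fun d hd => ⟨?_, switch_eigen hn d, fun ε hε t ht => switch_mixing hn d hε t ht,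
    fun t ht => switch_edges hn d hd t ht⟩, ?_⟩, fun a b ha hb => ⟨fun r c =>
    ⟨bip_eigen ha hb r c, fun ε hε t ht => bip_mixing ha hb r c hε t ht,
      fun t ht => bip_poly ha hb r c t ht⟩, ?_⟩⟩
  · exact final_of_half (fun _ _ d _ => poincare_half d) n hn d hd
  · refine ⟨d0 n, ⟨G1 hn, G1_deg hn⟩, ?_, ef hn, eigen0 hn, R1 hn, R2 hn, ?_⟩
    · obtain ⟨h1, _, _⟩ := final_of_half (fun _ _ d _ => poincare_half d) n hn (d0 n)
        ⟨G1 hn, G1_deg hn⟩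
      exact mix_lower hn _ h1.1
    · rw [ef1, ef2]; norm_num
  · refine ⟨m0 a, m0 b, fun t ht => mix_lower' ha hb t ht, ef' ha hb, eigen0' ha hb, M1 ha hb,
      M2 ha hb, ?_⟩
    rw [ef'1, ef'2]; norm_num

end Vale.Agent.Results.P335.SharpGap
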